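import Vale.Agent.P292.Bdl.B7

/-! # Block G: unramified Galois covers of contact Fano manifolds, without a torus. -/

namespace Vale.Agent.P292

open Module Polynomial

universe u v

variable {R : Type u} [CommRing R] [Algebra ℂ R] {𝒜 : ℕ → Submodule ℂ R} [GradedAlgebra 𝒜]
  {P : R →ₗ[ℂ] R →ₗ[ℂ] R}

/-- The extension `S` of `R` carries a grading and a bracket extending those of `R`. -/
structure IsCov (𝒜 : ℕ → Submodule ℂ R) (P : R →ₗ[ℂ] R →ₗ[ℂ] R)
    {S : Type v} [CommRing S] [Algebra ℂ S] [Algebra R S] (ℬ : ℕ → Submodule ℂ S)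
    (PS : S →ₗ[ℂ] S →ₗ[ℂ] S) : Prop where
  mem : ∀ k, ∀ r ∈ 𝒜 k, algebraMap R S r ∈ ℬ k
  ext : ∀ r s, PS (algebraMap R S r) (algebraMap R S s) = algebraMap R S (P r s)
  alternating : ∀ a, PS a a = 0
  leibniz : ∀ a b c, PS a (b * c) = PS a b * c + b * PS a c
  jacobi : ∀ a b c, PS a (PS b c) = PS (PS a b) c + PS b (PS a c)
  degree : ∀ i j k, i + j = k + 1 → ∀ a ∈ ℬ i, ∀ b ∈ ℬ j, PS a b ∈ ℬ k

/-- `x` is a simple root of the monic polynomial `q` over `R`, whose coefficients are homogeneous
so that the roots have degree one. -/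
def IsHomRootOne (𝒜 : ℕ → Submodule ℂ R) {S : Type v} [CommRing S]
    [Algebra R S] (x : S) (q : R[X]) : Prop :=
  q.Monic ∧ (∀ i ≤ q.natDegree, q.coeff i ∈ 𝒜 (q.natDegree - i)) ∧
  aeval x q = 0 ∧ aeval x (derivative q) ≠ 0

theorem cov_diag : ⊤ ≤ ⨆ m : ℤ, Module.End.eigenspace (euler 𝒜) (m : ℂ) := by
  rintro r -
  induction r using DirectSum.Decomposition.inductionOn 𝒜 with
  | zero => exact zero_mem _
  | homogeneous m =>
    rename_i k
    refine Submodule.mem_iSup_of_mem (k : ℤ) ?_
    rw [Module.End.mem_eigenspace_iff, euler_apply k _ m.2]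
    push_cast
    rfl
  | add r s hr hs => exact add_mem hr hs

theorem cov_nonneg (m : ℤ) (r : R) (hm : m < 0) (hr : euler 𝒜 r = (m : ℂ) • r) : r = 0 := by
  have h1 : ∀ r : R, r ∈ ⨆ (j : ℂ) (_ : j ≠ (m : ℂ)), Module.End.eigenspace (euler 𝒜) j := by
    intro r
    induction r using DirectSum.Decomposition.inductionOn 𝒜 with
    | zero => exact zero_mem _
    | homogeneous x =>
      rename_i k
      refine Submodule.mem_iSup_of_mem (k : ℂ) (Submodule.mem_iSup_of_mem ?_ ?_)
      · intro h3
        have h4 : (k : ℤ) = m := by exact_mod_cast h3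
        omega
      · rw [Module.End.mem_eigenspace_iff, euler_apply k _ x.2]
    | add r s hr hs => exact add_mem hr hs
  have h2 : r ∈ Module.End.eigenspace (euler 𝒜) (m : ℂ) := Module.End.mem_eigenspace_iff.2 hr
  exact (Submodule.disjoint_def.1 ((Module.End.eigenspaces_iSupIndep (euler 𝒜)) (m : ℂ))) r h2 (h1 r)

theorem isCov_of_data [IsDomain R] {S : Type u} [CommRing S] [IsDomain S]
    [Algebra ℂ S] [Algebra R S] [IsScalarTower ℂ R S] [FaithfulSMul R S] [Module.Finite R S]
    (E : S →ₗ[ℂ] S) (PS : S →ₗ[ℂ] S →ₗ[ℂ] S)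
    (hE : ∀ r, E (algebraMap R S r) = algebraMap R S (euler 𝒜 r))
    (hEm : ∀ s t, E (s * t) = E s * t + s * E t)
    (hEP : ∀ s t, E (PS s t) = PS (E s) t + PS s (E t) - PS s t)
    (hext : ∀ r s, PS (algebraMap R S r) (algebraMap R S s) = algebraMap R S (P r s))
    (halt : ∀ a, PS a a = 0) (hleib : ∀ a b c, PS a (b * c) = PS a b * c + b * PS a c)
    (hjac : ∀ a b c, PS a (PS b c) = PS (PS a b) c + PS b (PS a c))
    (X : Set S) (hX : ∀ x ∈ X, ∃ q : R[X], IsHomRootOne 𝒜 x q)
    (hgen : ∀ s : S, ∃ r : R, r ≠ 0 ∧ algebraMap R S r * s ∈ Algebra.adjoin R X) :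
    ∃ (ℬ : ℕ → Submodule ℂ S) (_ : GradedAlgebra ℬ), IsCov 𝒜 P ℬ PS ∧
      ∀ (k : ℕ) (x : S), x ∈ ℬ k ↔ E x = (k : ℂ) • x := by
  classical
  have hsm : ∀ (c : ℂ) (r : R), algebraMap R S (c • r) = c • algebraMap R S r := fun c r =>
    map_smul (IsScalarTower.toAlgHom ℂ R S) c r
  have hroot : ∀ (x : S) (q : R[X]), IsHomRootOne 𝒜 x q → E x = ((1 : ℤ) : ℂ) • x := by
    intro x q hq
    refine apply_root (euler 𝒜) E hEm hE _ q (fun i hi => ?_) x hq.2.2.1 hq.2.2.2
    rw [euler_apply _ _ (hq.2.1 i hi)]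
    congr 1
    push_cast
    ring
  have hEdiag : ⊤ ≤ ⨆ m : ℤ, Module.End.eigenspace E (m : ℂ) := by
    refine diag_of_adjoin (euler 𝒜) cov_diag E hEm hE X (fun x hx => ?_) hgen
    obtain ⟨q, hq⟩ := hX x hx
    exact ⟨_, hroot x q hq⟩
  have hEneg : ∀ (m : ℤ) (s : S), m < 0 → E s = (m : ℂ) • s → s = 0 := fun m s hm hs =>
    eq_zero_of_neg (euler 𝒜) cov_diag E hEm hE cov_nonneg m s hm hs
  let ℬ : ℕ → Submodule ℂ S := fun k => Module.End.eigenspace E (k : ℂ)
  have hℬ : ∀ k s, s ∈ ℬ k ↔ E s = (k : ℂ) • s := fun k s => Module.End.mem_eigenspace_iff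
  have hE1 : E 1 = 0 := by
    have h := hEm 1 1
    rw [mul_one, mul_one, one_mul] at h
    simpa using h
  have hgm : SetLike.GradedMonoid ℬ :=
    { one_mem := by rw [hℬ, hE1]; simp
      mul_mem := by
        intro i j s t hs ht
        rw [hℬ] at hs ht ⊢
        rw [hEm, hs, ht, smul_mul_assoc, mul_smul_comm, ← add_smul]
        push_cast
        rfl }
  have hint : DirectSum.IsInternal ℬ := by
    rw [DirectSum.isInternal_submodule_iff_iSupIndep_and_iSup_eq_top]
    refine ⟨?_, ?_⟩
    · exact (Module.End.eigenspaces_iSupIndep E).comp (fun i j h => by exact_mod_cast h)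
    · rw [eq_top_iff]
      refine hEdiag.trans (iSup_le fun m => ?_)
      rcases lt_or_ge m 0 with hm | hm
      · intro s hs
        rw [hEneg m s hm (Module.End.mem_eigenspace_iff.1 hs)]
        exact zero_mem _
      · obtain ⟨k, rfl⟩ := Int.eq_ofNat_of_zero_le hm
        exact le_iSup ℬ k
  let dec : DirectSum.Decomposition ℬ := hint.chooseDecomposition
  let gr : GradedAlgebra ℬ := { hgm, dec with }
  refine ⟨ℬ, gr, ⟨?_, hext, halt, hleib, hjac, ?_⟩, hℬ⟩
  · intro k r hr
    rw [hℬ, hE, euler_apply k r hr, hsm]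
  · intro i j k hijk s hs t ht
    rw [hℬ] at hs ht ⊢
    rw [hEP, hs, ht, map_smul, map_smul, LinearMap.smul_apply, ← add_smul]
    have h1 : ((i : ℂ) + j) = k + 1 := by exact_mod_cast hijk
    rw [h1, add_smul, one_smul, add_sub_cancel_right]

/-- The integral closure of `R` in an unramified extension `M` generated by roots of homogeneous
polynomials is a cover. `P'` is the extension of the bracket to `M` and `E'` the extension of the
Euler operator. -/
theorem exists_isCov (hXF : IsContactFano 𝒜 P) [IsDomain R] {M : Type u} [Field M] [Algebra ℂ M]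
    [Algebra R M] [IsScalarTower ℂ R M] [Algebra (FractionRing R) M]
    [IsScalarTower R (FractionRing R) M]
    [FiniteDimensional (FractionRing R) M] (hU : IsUnram R M) (X : Set M)
    (hX : ∀ x ∈ X, ∃ q : R[X], IsHomRootOne 𝒜 x q)
    (hgen : Algebra.adjoin (FractionRing R) X = ⊤) (P' : M →ₗ[ℂ] M →ₗ[ℂ] M)
    (hP1 : ∀ r s, P' (algebraMap R M r) (algebraMap R M s) = algebraMap R M (P r s))
    (hP2 : ∀ x, P' x x = 0) (hP3 : ∀ x y z, P' x (y * z) = P' x y * z + y * P' x z) :
    ∃ (ℬ : ℕ → Submodule ℂ (integralClosure R M)) (_ : GradedAlgebra ℬ)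
      (PS : integralClosure R M →ₗ[ℂ] integralClosure R M →ₗ[ℂ] integralClosure R M),
      IsCov 𝒜 P ℬ PS ∧ (∀ s t, ((PS s t : integralClosure R M) : M) = P' s t) ∧
      ∀ (k : ℕ) (x : integralClosure R M), (∀ E' : Derivation ℂ M M,
        (∀ r, E' (algebraMap R M r) = algebraMap R M (euler 𝒜 r)) → E' x = (k : ℂ) • (x : M)) →
        x ∈ ℬ k := by
  have : Algebra.FiniteType ℂ R := hXF.finiteType
  have : IsNoetherianRing R := Algebra.FiniteType.isNoetherianRing ℂ R
  have : IsIntegrallyClosed R := hXF.normal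
  have : CharZero R := charZero_of_injective_algebraMap (algebraMap ℂ R).injective
  have : CharZero (FractionRing R) := charZero_of_injective_algebraMap
    (IsFractionRing.injective R (FractionRing R))
  have hinj : Function.Injective (algebraMap R M) := by
    rw [IsScalarTower.algebraMap_eq R (FractionRing R) M]
    exact (algebraMap (FractionRing R) M).injective.comp
      (IsFractionRing.injective R (FractionRing R))
  have : FaithfulSMul R M := (faithfulSMul_iff_algebraMap_injective R M).2 hinj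
  have : Algebra.IsAlgebraic R M := ⟨fun x => (IsFractionRing.isAlgebraic_iff R (FractionRing R) M).2
    (Algebra.IsAlgebraic.isAlgebraic x)⟩
  have : Module.Finite R (integralClosure R M) :=
    IsIntegralClosure.finite R (FractionRing R) M (integralClosure R M)
  have hP4 : ∀ x y z, P' x (P' y z) = P' (P' x y) z + P' y (P' x z) := by
    obtain ⟨P₁, hP11, hP12, hP13, hP14⟩ := exists_bracket_ext (M := M) P hXF.alternating
      hXF.leibniz hXF.jacobi
    have hskew : ∀ (Q : M →ₗ[ℂ] M →ₗ[ℂ] M) (_ : ∀ x, Q x x = 0) x y, Q x y = - Q y x := by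
      intro Q hQ x y
      have h := hQ (x + y)
      rw [map_add, map_add, LinearMap.add_apply, LinearMap.add_apply, hQ x, hQ y, zero_add,
        add_zero] at h
      exact eq_neg_of_add_eq_zero_right h
    have h1 : ∀ (r : R) (y : M), P' (algebraMap R M r) y - P₁ (algebraMap R M r) y = 0 := by
      intro r y
      refine eq_zero_of_restrict (R := R)
        (fun y => P' (algebraMap R M r) y - P₁ (algebraMap R M r) y) ?_ ?_ ?_ y
      · intro x y
        simp only [map_add]
        ring
      · intro x y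
        simp only [hP3, hP13]
        ring
      · intro s
        simp only [hP1, hP11, sub_self]
    have h2 : ∀ x y : M, P' x y - P₁ x y = 0 := by
      intro x y
      refine eq_zero_of_restrict (R := R) (fun y => P' x y - P₁ x y) ?_ ?_ ?_ y
      · intro x y
        simp only [map_add]
        ring
      · intro x y
        simp only [hP3, hP13]
        ring
      · intro s
        have h3 := h1 s x
        rw [hskew P' hP2, hskew P₁ hP12]
        linear_combination -h3
    have h3 : ∀ x y : M, P' x y = P₁ x y := fun x y => sub_eq_zero.1 (h2 x y)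
    intro x y z
    simp only [h3]
    exact hP14 x y z
  let d0 : Derivation ℂ R M := Derivation.mk'
    ((IsScalarTower.toAlgHom ℂ R M).toLinearMap ∘ₗ euler 𝒜) (fun r s => by
      change algebraMap R M (euler 𝒜 (r * s)) = r • algebraMap R M (euler 𝒜 s) +
        s • algebraMap R M (euler 𝒜 r)
      rw [euler_mul, map_add, map_mul, map_mul, Algebra.smul_def, Algebra.smul_def]
      ring)
  obtain ⟨E', hE'⟩ := exists_derivation_ext (M := M) (N := M) d0
  have hE1 : ∀ r, E' (algebraMap R M r) = algebraMap R M (euler 𝒜 r) := hE'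
  have hEm : ∀ x y, E' (x * y) = E' x * y + x * E' y := by
    intro x y
    rw [Derivation.leibniz, smul_eq_mul, smul_eq_mul]
    ring
  have hEint : ∀ s, IsIntegral R s → IsIntegral R (E' s) := fun s hs =>
    hU.derivation_isIntegral E' (fun _ _ => map_add _ _ _) hEm
      (fun r => by rw [hE1]; exact isIntegral_algebraMap) s hs
  have hskew : ∀ x y, P' x y = - P' y x := by
    intro x y
    have h := hP2 (x + y)
    rw [map_add, map_add, LinearMap.add_apply, LinearMap.add_apply, hP2 x, hP2 y, zero_add,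
      add_zero] at h
    exact eq_neg_of_add_eq_zero_right h
  have hPint1 : ∀ (r : R) (s : M), IsIntegral R s → IsIntegral R (P' (algebraMap R M r) s) :=
    fun r s hs => hU.derivation_isIntegral (P' (algebraMap R M r)) (fun _ _ => map_add _ _ _)
      (hP3 _) (fun t => by rw [hP1]; exact isIntegral_algebraMap) s hs
  have hPint2 : ∀ s t : M, IsIntegral R s → IsIntegral R t → IsIntegral R (P' s t) :=
    fun s t hs ht => hU.derivation_isIntegral (P' s) (fun _ _ => map_add _ _ _)
      (hP3 _) (fun r => by rw [hskew]; exact (hPint1 r s hs).neg) t ht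
  let F : M → M → M := fun x y => E' (P' x y) - P' (E' x) y - P' x (E' y) + P' x y
  have hF : ∀ x y, F x y = E' (P' x y) - P' (E' x) y - P' x (E' y) + P' x y := fun _ _ => rfl
  have hF1 : ∀ x y z, F x (y + z) = F x y + F x z := by
    intro x y z
    simp only [hF, map_add]
    ring
  have hF2 : ∀ x y z, F x (y * z) = F x y * z + y * F x z := by
    intro x y z
    simp only [hF, hP3, hEm, map_add]
    ring
  have hF3 : ∀ x y, F x y = - F y x := by
    intro x y
    rw [hF, hF, hskew x y, hskew (E' x) y, hskew x (E' y), map_neg]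
    ring
  have hF4 : ∀ r s : R, F (algebraMap R M r) (algebraMap R M s) = 0 := by
    intro r s
    rw [hF, hE1, hE1, hP1, hP1, hP1, hE1, zb5_euler_P hXF, map_sub, map_add]
    ring
  have hF5 : ∀ (r : R) (y : M), F (algebraMap R M r) y = 0 := fun r y =>
    eq_zero_of_restrict (R := R) (F (algebraMap R M r)) (hF1 _) (hF2 _) (hF4 r) y
  have hF6 : ∀ x y : M, F x y = 0 := fun x y =>
    eq_zero_of_restrict (R := R) (F x) (hF1 _) (hF2 _)
      (fun r => by rw [hF3, hF5, neg_zero]) y
  have hEP : ∀ x y, E' (P' x y) = P' (E' x) y + P' x (E' y) - P' x y := by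
    intro x y
    have := hF6 x y
    rw [hF] at this
    linear_combination this
  let ES : integralClosure R M →ₗ[ℂ] integralClosure R M :=
    { toFun := fun s => ⟨E' s, hEint s s.2⟩
      map_add' := fun s t => Subtype.ext (map_add E' _ _)
      map_smul' := fun c s => Subtype.ext (E'.map_smul c (s : M)) }
  have hES : ∀ s, ((ES s : integralClosure R M) : M) = E' s := fun s => rfl
  let PS : integralClosure R M →ₗ[ℂ] integralClosure R M →ₗ[ℂ] integralClosure R M :=
    LinearMap.mk₂ ℂ (fun s t => ⟨P' s t, hPint2 s t s.2 t.2⟩)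
      (fun s s' t => Subtype.ext (by
        change P' ((s : M) + s') t = P' s t + P' s' t
        rw [map_add, LinearMap.add_apply]))
      (fun c s t => Subtype.ext (by
        change P' (c • (s : M)) t = c • P' s t
        rw [map_smul, LinearMap.smul_apply]))
      (fun s t t' => Subtype.ext (by
        change P' s ((t : M) + t') = P' s t + P' s t'
        rw [map_add]))
      (fun c s t => Subtype.ext (by
        change P' s (c • (t : M)) = c • P' s t
        rw [map_smul]))
  have hPS : ∀ s t, ((PS s t : integralClosure R M) : M) = P' s t := fun s t => rfl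
  let XS : Set (integralClosure R M) := {x | (x : M) ∈ X}
  have hXS : ∀ x ∈ XS, ∃ q : R[X], IsHomRootOne 𝒜 x q := by
    intro x hx
    obtain ⟨q, h1, h2, h3, h4⟩ := hX x hx
    refine ⟨q, h1, h2, Subtype.ext ?_, fun h => h4 ?_⟩
    · rw [zb5_coe_aeval, h3]
      rfl
    · rw [← zb5_coe_aeval, h]
      rfl
  have hXint : ∀ x ∈ X, IsIntegral R x := by
    intro x hx
    obtain ⟨q, h1, h2, h3, h4⟩ := hX x hx
    exact ⟨q, h1, by rw [← aeval_def]; exact h3⟩
  have himg : (integralClosure R M).val '' XS = X := by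
    ext x
    constructor
    · rintro ⟨y, hy, rfl⟩
      exact hy
    · intro hx
      exact ⟨⟨x, hXint x hx⟩, hx, rfl⟩
  have hgenS : ∀ s : integralClosure R M, ∃ r : R, r ≠ 0 ∧
      algebraMap R (integralClosure R M) r * s ∈ Algebra.adjoin R XS := by
    intro s
    obtain ⟨r, hr, h1⟩ := zb5_exists_mul_mem X hgen (s : M)
    refine ⟨r, hr, ?_⟩
    rw [← himg, ← AlgHom.map_adjoin] at h1
    obtain ⟨t, ht, h2⟩ := h1
    have h3 : t = algebraMap R (integralClosure R M) r * s := Subtype.ext h2
    rw [← h3]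
    exact ht
  obtain ⟨ℬ, gr, h1, h2⟩ := isCov_of_data ES PS
    (fun r => Subtype.ext (hE1 r)) (fun s t => Subtype.ext (hEm s t))
    (fun s t => Subtype.ext (hEP s t)) (fun r s => Subtype.ext (hP1 r s))
    (fun s => Subtype.ext (hP2 s)) (fun s t u => Subtype.ext (hP3 s t u))
    (fun s t u => Subtype.ext (hP4 s t u)) XS hXS hgenS
  refine ⟨ℬ, gr, PS, h1, hPS, fun k x hx => (h2 k x).2 (Subtype.ext ?_)⟩
  rw [hES, hx E' hE1]
  rfl

end Vale.Agent.P292
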