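import Vale.Agent.P292.G.Cover
import Vale.Agent.P292.Q.Fix

/-! # Block G: unramified Galois covers with a non-nilpotent contact field. -/

namespace Vale.Agent.P292

open Module Polynomial

universe u v

variable {R : Type u} [CommRing R] [Algebra ℂ R] {𝒜 : ℕ → Submodule ℂ R} [GradedAlgebra 𝒜]
  {P : R →ₗ[ℂ] R →ₗ[ℂ] R}

section
variable {S : Type u} [CommRing S] [IsDomain S] [Algebra ℂ S] [Algebra R S] [IsScalarTower ℂ R S]
  [FaithfulSMul R S] [Module.Finite R S] {ℬ : ℕ → Submodule ℂ S} [GradedAlgebra ℬ]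
  {PS : S →ₗ[ℂ] S →ₗ[ℂ] S}

/-- Automorphisms over `R` preserve the grading. -/
theorem IsCov.map_mem (h : IsCov 𝒜 P ℬ PS) (σ : S ≃ₐ[R] S) {k : ℕ} {s : S}
    (hs : s ∈ ℬ k) : σ s ∈ ℬ k := by
  have hσ : ∀ (c : ℂ) (t : S), σ (c • t) = c • σ t := fun c t =>
    map_smul (σ.restrictScalars ℂ) c t
  let V : S →+ S :=
    ((σ.symm : S →+* S).toAddMonoidHom.comp ((euler ℬ).toAddMonoidHom.comp
      (σ : S →+* S).toAddMonoidHom)) - (euler ℬ).toAddMonoidHom
  have hVa : ∀ t, V t = σ.symm (euler ℬ (σ t)) - euler ℬ t := fun t => rfl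
  have h1 := zb6_der_zero (R := R) V (fun p q => by
    rw [hVa, hVa, hVa, map_mul, euler_mul, euler_mul, map_add, map_mul, map_mul,
      AlgEquiv.symm_apply_apply, AlgEquiv.symm_apply_apply]
    ring) (fun r => by
    rw [hVa, AlgEquiv.commutes, zb6_euler h.mem, AlgEquiv.commutes, sub_self]) s
  rw [hVa, sub_eq_zero, euler_apply k s hs] at h1
  apply zb6_mem_of_euler
  rw [← hσ, ← h1, AlgEquiv.apply_symm_apply]

set_option linter.unusedSectionVars false in
theorem IsCov.skew (h : IsCov 𝒜 P ℬ PS) (s t : S) : PS s t = - PS t s := by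
  have h1 := h.alternating (s + t)
  rw [map_add, map_add, LinearMap.add_apply, LinearMap.add_apply, h.alternating, h.alternating,
    zero_add, add_zero] at h1
  rw [eq_neg_iff_add_eq_zero, add_comm]
  exact h1

set_option linter.unusedSectionVars false in
/-- Automorphisms over `R` preserve the bracket. -/
theorem IsCov.map_P (h : IsCov 𝒜 P ℬ PS) (σ : S ≃ₐ[R] S) (s t : S) :
    σ (PS s t) = PS (σ s) (σ t) := by
  have key : ∀ (r : R) (t : S), PS (algebraMap R S r) (σ t) = σ (PS (algebraMap R S r) t) := by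
    intro r t
    let V : S →+ S :=
      ((σ.symm : S →+* S).toAddMonoidHom.comp ((PS (algebraMap R S r)).toAddMonoidHom.comp
        (σ : S →+* S).toAddMonoidHom)) - (PS (algebraMap R S r)).toAddMonoidHom
    have hVa : ∀ t, V t = σ.symm (PS (algebraMap R S r) (σ t)) - PS (algebraMap R S r) t :=
      fun t => rfl
    have h1 := zb6_der_zero (R := R) V (fun p q => by
      rw [hVa, hVa, hVa, map_mul, h.leibniz, h.leibniz, map_add, map_mul, map_mul,
        AlgEquiv.symm_apply_apply, AlgEquiv.symm_apply_apply]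
      ring) (fun r' => by
      rw [hVa, AlgEquiv.commutes, h.ext, AlgEquiv.commutes, sub_self]) t
    rw [hVa, sub_eq_zero] at h1
    rw [← h1, AlgEquiv.apply_symm_apply]
  let V : S →+ S :=
    ((σ.symm : S →+* S).toAddMonoidHom.comp ((PS.flip (σ t)).toAddMonoidHom.comp
      (σ : S →+* S).toAddMonoidHom)) - (PS.flip t).toAddMonoidHom
  have hVa : ∀ s, V s = σ.symm (PS (σ s) (σ t)) - PS s t := fun s => rfl
  have hl : ∀ p q t, PS (p * q) t = PS p t * q + p * PS q t := by
    intro p q t
    rw [h.skew (p * q) t, h.leibniz, h.skew p t, h.skew q t]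
    ring
  have h1 := zb6_der_zero (R := R) V (fun p q => by
    rw [hVa, hVa, hVa, map_mul, hl, hl, map_add, map_mul, map_mul,
      AlgEquiv.symm_apply_apply, AlgEquiv.symm_apply_apply]
    ring) (fun r => by
    rw [hVa, AlgEquiv.commutes, key, AlgEquiv.symm_apply_apply, sub_self]) s
  rw [hVa, sub_eq_zero] at h1
  rw [← h1, AlgEquiv.apply_symm_apply]

/-- The automorphism group of an adjoint cover is trivial. -/
theorem IsCov.eq_refl (hX : IsContactFano 𝒜 P) (h : IsCov 𝒜 P ℬ PS)
    (hB : IsContactFano ℬ PS) (hadj : IsAdjointVariety ℬ PS) [Finite (S ≃ₐ[R] S)]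
    (σ : S ≃ₐ[R] S) : σ = AlgEquiv.refl := by
  classical
  -- automorphisms of prime order do not exist
  have key : ∀ (p : ℕ) (_ : p.Prime) (σ : S ≃ₐ[R] S), orderOf σ = p → False := by
    intro p hp σ hσ
    have h1 : ∀ k (s : S), (σ ^ k) s = (⇑σ)^[k] s := by
      intro k s
      induction k generalizing s with
      | zero => rfl
      | succ k ih => rw [pow_succ, AlgEquiv.mul_apply, ih, Function.iterate_succ_apply]
    obtain ⟨x, hx, c, hc⟩ := exists_fixed_point_noTorus hB hadj (σ.restrictScalars ℂ)
      (fun k s hs => h.map_mem σ hs)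
      (fun s t => h.map_P σ s t) hp (fun s => by
        have h2 := h1 p s
        rw [← hσ, pow_orderOf_eq_one] at h2
        rw [hσ] at h2
        exact h2.symm)
    have h3 : σ = AlgEquiv.refl := by
      refine eq_refl_of_fixed_scale hX h.mem (fun b s => PS (algebraMap R S b) s)
        (fun b s t => map_add _ _ _) (fun b s t => h.leibniz _ _ _) (fun b r => h.ext b r) σ
        (fun b s => ?_) x (not_isVertex_restrict h.mem hx) c hc
      rw [h.map_P, AlgEquiv.commutes]
    have h4 : orderOf σ = 1 := by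
      rw [h3]
      exact orderOf_one
    rw [hσ] at h4
    exact hp.ne_one h4
  by_contra hne
  have h1 : orderOf σ ≠ 1 := fun h => hne (orderOf_eq_one_iff.1 h)
  obtain ⟨p, hp, hpd⟩ := Nat.exists_prime_and_dvd h1
  obtain ⟨k, hk⟩ := hpd
  have h2 : 0 < orderOf σ := orderOf_pos σ
  have hk0 : k ≠ 0 := by
    rintro rfl
    omega
  exact key p hp (σ ^ k) (by
    rw [orderOf_pow_of_dvd hk0 ⟨p, by rw [hk]; ring⟩, hk]
    exact Nat.mul_div_cancel _ (Nat.pos_of_ne_zero hk0))

end

/-- A contact Fano manifold with a non-nilpotent contact field is an adjoint variety. -/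
theorem isAdjointVariety_of_not_nilpotent (hX : IsContactFano 𝒜 P) {f : R} (hf : f ∈ 𝒜 1) {r : R}
    (hr : ∀ n : ℕ, (⇑(P f))^[n] r ≠ 0) : IsAdjointVariety 𝒜 P := by
  obtain ⟨k, s, hs, hn⟩ := exists_homogeneous_of_not_nilpotent (𝒜 := 𝒜) (P f) hr
  obtain ⟨H, hH⟩ := exists_isContactTorus_of_not_nilpotent hX hf hs hn
  exact isAdjointVariety_of_torus' hX hH

/-- **Block G.** Let `M` be a finite Galois extension of the fraction field of the section ring
`R` of a contact Fano manifold, generated by roots of homogeneous polynomials and unramified over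
all the discrete valuation rings `R_𝔭`. Let `P'` be the extension of the bracket to `M`. If there
is `h` in `M`, integral over `R` and of degree one (`E' h = h` for the extension `E'` of the Euler
operator), with `P' h` not nilpotent on some element integral over `R`, then `R` is the section
ring of an adjoint variety. -/
theorem isAdjointVariety_of_isUnram (hX : IsContactFano 𝒜 P) [IsDomain R] {M : Type u} [Field M]
    [Algebra ℂ M] [Algebra R M] [IsScalarTower ℂ R M] [Algebra (FractionRing R) M]
    [IsScalarTower R (FractionRing R) M] [FiniteDimensional (FractionRing R) M]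
    [IsGalois (FractionRing R) M] (hU : IsUnram R M) (X : Set M)
    (hX1 : ∀ x ∈ X, ∃ q : R[X], IsHomRootOne 𝒜 x q)
    (hgen : Algebra.adjoin (FractionRing R) X = ⊤) (P' : M →ₗ[ℂ] M →ₗ[ℂ] M)
    (hP1 : ∀ r s, P' (algebraMap R M r) (algebraMap R M s) = algebraMap R M (P r s))
    (hP2 : ∀ x, P' x x = 0) (hP3 : ∀ x y z, P' x (y * z) = P' x y * z + y * P' x z)
    (h : M) (hh : IsIntegral R h)
    (hh1 : ∀ E' : Derivation ℂ M M,
      (∀ r, E' (algebraMap R M r) = algebraMap R M (euler 𝒜 r)) → E' h = h)
    (s : M) (hs : IsIntegral R s) (hn : ∀ n : ℕ, (⇑(P' h))^[n] s ≠ 0) :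
    IsAdjointVariety 𝒜 P := by
  classical
  have hXF := hX
  have : Algebra.FiniteType ℂ R := hXF.finiteType
  have : IsNoetherianRing R := Algebra.FiniteType.isNoetherianRing ℂ R
  have : IsIntegrallyClosed R := hXF.normal
  have : CharZero R := charZero_of_injective_algebraMap (algebraMap ℂ R).injective
  have : CharZero (FractionRing R) := charZero_of_injective_algebraMap
    (IsFractionRing.injective R (FractionRing R))
  have hinj : Function.Injective (algebraMap R M) := by
    rw [IsScalarTower.algebraMap_eq R (FractionRing R) M]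
    exact (algebraMap (FractionRing R) M).injective.comp
      (IsFractionRing.injective R (FractionRing R))
  have : FaithfulSMul R M := (faithfulSMul_iff_algebraMap_injective R M).2 hinj
  have : Module.Finite R (integralClosure R M) :=
    IsIntegralClosure.finite R (FractionRing R) M (integralClosure R M)
  have : IsIntegrallyClosed (integralClosure R M) :=
    integralClosure.isIntegrallyClosedOfFiniteExtension (FractionRing R)
  have hfin : Finite (integralClosure R M ≃ₐ[R] integralClosure R M) := finite_aut_integralClosure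
  obtain ⟨ℬ, gr, PS, hcov, hPS, hdeg⟩ := exists_isCov hX hU X hX1 hgen P' hP1 hP2 hP3
  have hBF : IsContactFano ℬ PS := isContactFano_of_galois hXF
    (FaithfulSMul.algebraMap_injective R _) hcov.mem PS hcov.ext hcov.alternating hcov.leibniz
    hcov.jacobi hcov.degree (fun σ b s => by rw [hcov.map_P, AlgEquiv.commutes])
    exists_of_invariant
  have hhB : (⟨h, hh⟩ : integralClosure R M) ∈ ℬ 1 := hdeg 1 _ (fun E' hE' => by
    rw [Nat.cast_one, one_smul]
    exact hh1 E' hE')
  have hiter : ∀ (n : ℕ) (x : integralClosure R M),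
      (((⇑(PS ⟨h, hh⟩))^[n] x : integralClosure R M) : M) = (⇑(P' h))^[n] x := by
    intro n
    induction n with
    | zero => intro x; rfl
    | succ n ih =>
      intro x
      rw [Function.iterate_succ_apply, Function.iterate_succ_apply, ih, hPS]
  have hadj : IsAdjointVariety ℬ PS := isAdjointVariety_of_not_nilpotent hBF hhB
    (r := ⟨s, hs⟩) (fun n h0 => hn n (by
      have h1 := hiter n ⟨s, hs⟩
      rw [h0] at h1
      exact h1.symm))
  have hsurj : ∀ s : integralClosure R M, ∃ r : R, algebraMap R (integralClosure R M) r = s :=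
    fun s => exists_of_invariant s fun σ => by
      rw [hcov.eq_refl hX hBF hadj σ]
      rfl
  obtain ⟨h₀, hh₀⟩ := hsurj ⟨h, hh⟩
  obtain ⟨s₀, hs₀⟩ := hsurj ⟨s, hs⟩
  have hinj' : Function.Injective (algebraMap R (integralClosure R M)) :=
    FaithfulSMul.algebraMap_injective R _
  have h1 : (DirectSum.decompose 𝒜 h₀ 1 : R) = h₀ := by
    apply hinj'
    rw [← coe_decompose_algebraMap hcov.mem, hh₀, DirectSum.decompose_of_mem_same ℬ hhB]
  have h2 : h₀ ∈ 𝒜 1 := by
    rw [← h1]
    exact SetLike.coe_mem _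
  have h3 : ∀ (n : ℕ) (x : R), algebraMap R (integralClosure R M) ((⇑(P h₀))^[n] x) =
      (⇑(PS ⟨h, hh⟩))^[n] (algebraMap R _ x) := by
    intro n
    induction n with
    | zero => intro x; rfl
    | succ n ih =>
      intro x
      rw [Function.iterate_succ_apply, Function.iterate_succ_apply, ih, ← hcov.ext, hh₀]
  refine isAdjointVariety_of_not_nilpotent hX h2 (r := s₀) (fun n h0 => hn n ?_)
  have h4 := h3 n s₀
  rw [h0, map_zero, hs₀] at h4
  have h5 := hiter n ⟨s, hs⟩
  rw [← h4] at h5
  exact h5.symm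

end Vale.Agent.P292
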