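import Vale.Agent.P292.Bdl.B7

/-! # Block G: stability under the Hamiltonian derivations implies unramifiedness. -/

namespace Vale.Agent.P292

open Module Polynomial

universe u v

variable {R : Type u} [CommRing R] [Algebra ℂ R] {𝒜 : ℕ → Submodule ℂ R} [GradedAlgebra 𝒜]
  {P : R →ₗ[ℂ] R →ₗ[ℂ] R}

/-- If `a * z ^ N` is integral over the discrete valuation ring `V` for all `N`, `z` is
integral. -/
theorem isIntegral_of_almost {V : Type u} {M : Type v} [CommRing V] [IsDomain V]
    [IsNoetherianRing V] [Field M] [Algebra V M] [FaithfulSMul V M]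
    [Module.Finite V (integralClosure V M)] (a : V) (ha : a ≠ 0) (z : M)
    (h : ∀ N : ℕ, IsIntegral V (algebraMap V M a * z ^ N)) : IsIntegral V z := by
  classical
  have ha' : algebraMap V M a ≠ 0 := by
    rw [Ne, FaithfulSMul.algebraMap_eq_zero_iff]
    exact ha
  -- the finite module `a⁻¹ T`
  let g : integralClosure V M →ₗ[V] M :=
    { toFun := fun x => (algebraMap V M a)⁻¹ * (x : M)
      map_add' := fun x y => by
        change _ * ((x : M) + (y : M)) = _
        rw [mul_add]
      map_smul' := fun c x => by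
        change _ * (c • (x : M)) = c • (_ * (x : M))
        rw [mul_smul_comm] }
  have hg : ∀ x, g x = (algebraMap V M a)⁻¹ * (x : M) := fun _ => rfl
  have hfg : (LinearMap.range g).FG := by
    rw [← Submodule.map_top]
    exact (Module.Finite.fg_top).map g
  have hmem : ∀ N : ℕ, z ^ N ∈ LinearMap.range g := by
    intro N
    refine ⟨⟨_, h N⟩, ?_⟩
    rw [hg]
    change (algebraMap V M a)⁻¹ * (algebraMap V M a * z ^ N) = z ^ N
    rw [← mul_assoc, inv_mul_cancel₀ ha', one_mul]
  have hle : (Algebra.adjoin V {z}).toSubmodule ≤ LinearMap.range g := by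
    rw [Algebra.adjoin_singleton_eq_range_aeval]
    rintro _ ⟨q, rfl⟩
    change aeval z q ∈ _
    rw [aeval_eq_sum_range]
    exact sum_mem fun i _ => Submodule.smul_mem _ _ (hmem i)
  have : IsNoetherian V (LinearMap.range g) := isNoetherian_of_fg_of_noetherian _ hfg
  have hfg2 : ((Algebra.adjoin V {z}).toSubmodule).FG := by
    have h1 : (Submodule.comap (LinearMap.range g).subtype (Algebra.adjoin V {z}).toSubmodule).FG :=
      IsNoetherian.noetherian _
    have h2 := h1.map (LinearMap.range g).subtype
    rwa [Submodule.map_comap_subtype, inf_eq_right.2 hle] at h2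
  exact IsIntegral.of_mem_of_fg _ hfg2 z (Algebra.subset_adjoin rfl)

/-- Some Hamiltonian derivation does not vanish on the uniformizer. -/
theorem exists_bracket_notMem (hX : IsContactFano 𝒜 P) (𝔭 : Ideal R) [𝔭.IsPrime]
    (V : Type u) [CommRing V] [IsDomain V] [IsDiscreteValuationRing V] [Algebra R V]
    [IsLocalization.AtPrime V 𝔭] (a : R) (ha : Irreducible (algebraMap R V a)) :
    ∃ r : R, P r a ∉ 𝔭 := by
  have : IsDomain R := hX.domain
  have hinj : Function.Injective (algebraMap R V) :=
    IsLocalization.injective V (M := 𝔭.primeCompl) (le_nonZeroDivisors_of_noZeroDivisors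
      (fun h => h (𝔭.zero_mem)))
  have hmem : ∀ f : R, f ∈ 𝔭 ↔ algebraMap R V f ∈ IsLocalRing.maximalIdeal V := by
    intro f
    have h2 : (IsLocalRing.maximalIdeal V).comap (algebraMap R V) = 𝔭 :=
      IsLocalization.AtPrime.under_maximalIdeal V 𝔭
    conv_lhs => rw [← h2]
    rw [Ideal.mem_comap]
  have ha𝔭 : a ∈ 𝔭 := by
    rw [hmem, IsLocalRing.mem_maximalIdeal, mem_nonunits_iff]
    exact ha.not_isUnit
  by_contra hcon
  push Not at hcon
  have hpois : ∀ b, ∀ f ∈ 𝔭, P b f ∈ 𝔭 := by
    intro b f hf
    rw [hmem, ha.maximalIdeal_eq, Ideal.mem_span_singleton] at hf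
    obtain ⟨g, hg⟩ := hf
    obtain ⟨⟨c, d⟩, hcd⟩ := IsLocalization.surj 𝔭.primeCompl g
    simp only at hcd
    have h1 : f * (d : R) = a * c := by
      apply hinj
      rw [map_mul, map_mul, hg, mul_assoc, hcd]
    have h2 : P b f * (d : R) ∈ 𝔭 := by
      have h3 := congrArg (P b) h1
      rw [hX.leibniz, hX.leibniz] at h3
      have h4 : P b f * (d : R) = P b a * c + a * P b c - f * P b (d : R) := by
        rw [← h3]; ring
      have hf' : f ∈ 𝔭 := by
        rw [hmem, ha.maximalIdeal_eq, Ideal.mem_span_singleton]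
        exact ⟨g, hg⟩
      rw [h4]
      exact sub_mem (add_mem (Ideal.mul_mem_right _ _ (hcon b)) (Ideal.mul_mem_right _ _ ha𝔭))
        (Ideal.mul_mem_right _ _ hf')
    exact (Ideal.IsPrime.mem_or_mem inferInstance h2).resolve_right d.2
  by_cases h𝔭 : ∀ k, 0 < k → ∀ r ∈ 𝒜 k, r ∈ 𝔭
  · exact not_dvr_vertex hX 𝔭 h𝔭 V
  push Not at h𝔭
  obtain ⟨k, hk, g, hg, hg𝔭⟩ := h𝔭
  obtain ⟨x, hx, hxg⟩ := exists_closed_of_prime hX 𝔭
    (fun r n hrn => Ideal.IsPrime.mem_of_pow_mem inferInstance n hrn) g hg𝔭
  have hbot := poisson_simple hX (p := x) (fun hv => hxg (hv k hk g hg)) 𝔭 hpois hx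
  rw [hbot, Ideal.mem_bot] at ha𝔭
  apply ha.ne_zero
  rw [ha𝔭, map_zero]

/-- **Stable implies unramified.** If the integral closure of `R` in `M` is stable under all the
Hamiltonian derivations `{r, ·}`, `r ∈ R`, then `M` is unramified over `R` in codimension one. -/
theorem isUnram_of_stable (hX : IsContactFano 𝒜 P) [IsDomain R] {M : Type v} [Field M]
    [Algebra R M] [Algebra (FractionRing R) M] [IsScalarTower R (FractionRing R) M]
    [FiniteDimensional (FractionRing R) M] (D : R → M → M)
    (hadd : ∀ r x y, D r (x + y) = D r x + D r y)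
    (hmul : ∀ r x y, D r (x * y) = D r x * y + x * D r y)
    (hext : ∀ r s, D r (algebraMap R M s) = algebraMap R M (P r s))
    (hst : ∀ r x, IsIntegral R x → IsIntegral R (D r x)) : IsUnram R M := by
  classical
  intro 𝔭 _ V _ _ _ _ _ _ _ _ ϖ hϖ s hs
  have hft : Algebra.FiniteType ℂ R := hX.finiteType
  have hno : IsNoetherianRing R := Algebra.FiniteType.isNoetherianRing ℂ R
  have hic : IsIntegrallyClosed R := hX.normal
  haveI : CharZero R := charZero_of_injective_algebraMap (algebraMap ℂ R).injective
  haveI : CharZero (FractionRing R) :=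
    charZero_of_injective_algebraMap (IsFractionRing.injective R (FractionRing R))
  haveI : CharZero M := charZero_of_injective_algebraMap (algebraMap (FractionRing R) M).injective
  obtain ⟨i, hfr, htw⟩ := zb2_fraction (M := M) 𝔭 V
  haveI : Module.Finite V (integralClosure V M) :=
    IsIntegralClosure.finite V (FractionRing R) M (integralClosure V M)
  -- a uniformizer in `R`
  obtain ⟨⟨a, b⟩, hab⟩ := IsLocalization.surj 𝔭.primeCompl ϖ
  simp only at hab
  have hbu : IsUnit (algebraMap R V (b : R)) := IsLocalization.map_units V b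
  have hairr : Irreducible (algebraMap R V a) := by
    rw [← hab]
    exact (irreducible_mul_isUnit hbu).2 hϖ
  obtain ⟨r, hr⟩ := exists_bracket_notMem hX 𝔭 V a hairr
  have hau : IsUnit (algebraMap R V (P r a)) :=
    IsLocalization.map_units V (⟨P r a, hr⟩ : 𝔭.primeCompl)
  -- stability over `V`
  have hstV : ∀ x : M, IsIntegral V x → IsIntegral V (D r x) := by
    intro x hx
    obtain ⟨m, hm⟩ := IsIntegral.exists_multiple_integral_of_isLocalization 𝔭.primeCompl x hx
    have h1 := (hst r _ hm).tower_top (A := V)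
    have h2 : (m • x : M) = algebraMap R M (m : R) * x := by
      rw [Submonoid.smul_def, Algebra.smul_def]
    rw [h2, hmul, hext] at h1
    obtain ⟨w, hw⟩ := IsLocalization.map_units V m
    have h3 : algebraMap V M (↑w⁻¹ : V) * algebraMap R M (m : R) = 1 := by
      rw [IsScalarTower.algebraMap_apply R V M, ← map_mul, ← hw, Units.inv_mul, map_one]
    have h4 : D r x = algebraMap V M (↑w⁻¹ : V) *
        ((algebraMap R M (P r (m : R)) * x + algebraMap R M (m : R) * D r x) -
          algebraMap V M (algebraMap R V (P r (m : R))) * x) := by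
      rw [← IsScalarTower.algebraMap_apply R V M]
      linear_combination (-(D r x)) * h3
    rw [h4]
    exact isIntegral_algebraMap.mul (h1.sub (isIntegral_algebraMap.mul hx))
  -- reduce to the uniformizer `a`
  set α : M := algebraMap V M (algebraMap R V a) with hα
  have hα' : α = algebraMap R M a := (IsScalarTower.algebraMap_apply R V M a).symm
  set β : M := algebraMap V M (algebraMap R V (b : R)) with hβ
  have hαβ : algebraMap V M ϖ * β = α := by rw [hβ, hα, ← map_mul, hab]
  have hα0 : α ≠ 0 := by
    rw [hα, Ne, FaithfulSMul.algebraMap_eq_zero_iff]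
    exact hairr.ne_zero
  have hβ0 : β ≠ 0 := fun h => hα0 (by rw [← hαβ, h, mul_zero])
  have hϖ0 : algebraMap V M ϖ ≠ 0 := fun h => hα0 (by rw [← hαβ, h, zero_mul])
  obtain ⟨wb, hwb⟩ := hbu.exists_left_inv
  have hβinv : β⁻¹ = algebraMap V M wb := by
    rw [inv_eq_iff_eq_inv, ← one_div, eq_div_iff (by
      intro h
      have h1 := congrArg (algebraMap V M) hwb
      rw [map_mul, h, zero_mul, map_one] at h1
      exact zero_ne_one h1), hβ, ← map_mul, mul_comm, hwb, map_one]
  have hs2 : IsIntegral V (s ^ 2 / α) := by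
    have h1 : s ^ 2 / α = β⁻¹ * (s ^ 2 / algebraMap V M ϖ) := by
      rw [← hαβ]
      field_simp
    rw [h1, hβinv]
    exact isIntegral_algebraMap.mul hs
  have hsi : IsIntegral V s := by
    have h1 : IsIntegral V (s ^ 2) := by
      have h2 : s ^ 2 = α * (s ^ 2 / α) := by field_simp
      rw [h2]
      exact isIntegral_algebraMap.mul hs2
    exact h1.of_pow two_pos
  -- the derivative of `a` is a unit
  obtain ⟨wa, hwa⟩ := hau.exists_left_inv
  set δ : M := algebraMap R M (P r a) with hδ
  have hδα : D r α = δ := by rw [hα', hext]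
  have hwδ : algebraMap V M wa * δ = 1 := by
    rw [hδ, IsScalarTower.algebraMap_apply R V M, ← map_mul, hwa, map_one]
  have hδ0 : δ ≠ 0 := fun h => by
    rw [h, mul_zero] at hwδ
    exact zero_ne_one hwδ
  have hunit : ∀ n : ℕ, n ≠ 0 → IsIntegral V ((n : M)⁻¹) := by
    intro n hn
    have h1 : ((n : M)⁻¹) = algebraMap R M (algebraMap ℂ R ((n : ℂ)⁻¹)) := by
      have h2 : (n : M) = algebraMap R M (algebraMap ℂ R (n : ℂ)) := by
        rw [map_natCast, map_natCast]
      have h3 : algebraMap R M (algebraMap ℂ R ((n : ℂ)⁻¹)) * (n : M) = 1 := by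
        rw [h2, ← map_mul, ← map_mul, inv_mul_cancel₀ (Nat.cast_ne_zero.2 hn), map_one, map_one]
      exact (eq_inv_of_mul_eq_one_left h3).symm
    rw [h1, IsScalarTower.algebraMap_apply R V M]
    exact isIntegral_algebraMap
  have hpow : ∀ (x : M) (n : ℕ), D r (x ^ (n + 1)) = ((n : M) + 1) * x ^ n * D r x := by
    intro x n
    induction n with
    | zero => simp
    | succ n ih =>
      rw [pow_succ, hmul, ih]
      push_cast
      ring
  -- the induction
  have key : ∀ k : ℕ, IsIntegral V (s ^ (k + 2) / α ^ (k + 1)) := by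
    intro k
    induction k with
    | zero => simpa using hs2
    | succ k ih =>
      set t : M := s ^ (k + 2) / α ^ (k + 1) with ht
      have h1 : s ^ (k + 2) = α ^ (k + 1) * t := by
        rw [ht]
        field_simp
      have h2 := congrArg (D r) h1
      rw [hpow, hmul, hpow, hδα] at h2
      -- `(k+2) s^(k+1) Ds = (k+1) α^k δ t + α^(k+1) Dt`
      have h3 : s ^ (k + 1 + 2) / α ^ (k + 1 + 1) = ((k + 1 : ℕ) : M)⁻¹ * (algebraMap V M wa *
          (((k + 1 + 1 : ℕ) : M) * t * D r s - s * D r t)) := by
        have hk : ((k + 1 : ℕ) : M) ≠ 0 := by exact_mod_cast Nat.succ_ne_zero k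
        have hw' : algebraMap V M wa = δ⁻¹ := by
          rw [← one_div, eq_div_iff hδ0, hwδ]
        rw [hw', eq_comm, inv_mul_eq_iff_eq_mul₀ hk, inv_mul_eq_iff_eq_mul₀ hδ0]
        have h4 : s ^ (k + 1 + 2) / α ^ (k + 1 + 1) = t * s / α := by
          rw [ht]
          field_simp
          try ring
        rw [h4]
        have h5 : (((k : M) + 1 + 1) * t * D r s - s * D r t) * α ^ (k + 1) =
            ((k : M) + 1) * δ * (t * s / α) * α ^ (k + 1) := by
          have h6 : ((k : M) + 1 + 1) * t * D r s * α ^ (k + 1) =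
              s * (((k : M) + 1 + 1) * s ^ (k + 1) * D r s) := by
            have h7 : t * α ^ (k + 1) = s * s ^ (k + 1) := by
              rw [ht]
              field_simp
              try ring
            linear_combination (((k : M) + 1 + 1) * D r s) * h7
          have h8 : (((k + 1 : ℕ) : M) + 1) * s ^ (k + 1) * D r s =
              ((k : M) + 1) * α ^ k * δ * t + α ^ (k + 1) * D r t := h2
          push_cast at h8
          rw [sub_mul, h6, h8]
          field_simp
          ring
        have h9 := mul_right_cancel₀ (pow_ne_zero (k + 1) hα0) h5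
        push_cast
        rw [h9]
        ring
      rw [h3]
      refine (hunit _ (Nat.succ_ne_zero k)).mul (isIntegral_algebraMap.mul (IsIntegral.sub ?_ ?_))
      · refine IsIntegral.mul (IsIntegral.mul ?_ ih) (hstV s hsi)
        rw [← map_natCast (algebraMap V M)]
        exact isIntegral_algebraMap
      · exact hsi.mul (hstV t ih)
  have hfin : IsIntegral V (s / α) := by
    refine isIntegral_of_almost (algebraMap R V a) hairr.ne_zero _ (fun N => ?_)
    rw [← hα]
    rcases N with _ | N
    · rw [pow_zero, mul_one, hα]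
      exact isIntegral_algebraMap
    rcases N with _ | N
    · have h1 : α * (s / α) ^ (0 + 1) = s := by
        rw [zero_add, pow_one, mul_div_cancel₀ _ hα0]
      rw [h1]
      exact hsi
    · have h1 : α * (s / α) ^ (N + 1 + 1) = s ^ (N + 2) / α ^ (N + 1) := by
        rw [div_pow, pow_succ α (N + 1), eq_div_iff (pow_ne_zero _ hα0)]
        field_simp
      rw [h1]
      exact key N
  have h1 : s / algebraMap V M ϖ = β * (s / α) := by
    rw [← hαβ]
    field_simp
  rw [h1]
  exact isIntegral_algebraMap.mul hfin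

end Vale.Agent.P292
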