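import Vale.Agent.P292.G.Final
import Vale.Agent.P292.G.Stable

/-! # Block G: Galois extensions with stable integral closure. -/

namespace Vale.Agent.P292

open Module Polynomial

universe u v

variable {R : Type u} [CommRing R] [Algebra ℂ R] {𝒜 : ℕ → Submodule ℂ R} [GradedAlgebra 𝒜]
  {P : R →ₗ[ℂ] R →ₗ[ℂ] R}

/-- The extended Euler operator and the extended bracket. -/
theorem euler_ext_bracket (hX : IsContactFano 𝒜 P) [IsDomain R] {M : Type v} [Field M]
    [Algebra ℂ M] [Algebra R M] [IsScalarTower ℂ R M] [Algebra (FractionRing R) M]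
    [IsScalarTower R (FractionRing R) M] [FiniteDimensional (FractionRing R) M]
    (P' : M →ₗ[ℂ] M →ₗ[ℂ] M)
    (hP1 : ∀ r s, P' (algebraMap R M r) (algebraMap R M s) = algebraMap R M (P r s))
    (hP2 : ∀ x, P' x x = 0) (hP3 : ∀ x y z, P' x (y * z) = P' x y * z + y * P' x z)
    (E' : Derivation ℂ M M)
    (hE1 : ∀ r, E' (algebraMap R M r) = algebraMap R M (euler 𝒜 r)) (x y : M) :
    E' (P' x y) = P' (E' x) y + P' x (E' y) - P' x y := by
  have : CharZero R := charZero_of_injective_algebraMap (algebraMap ℂ R).injective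
  have : CharZero (FractionRing R) := charZero_of_injective_algebraMap
    (IsFractionRing.injective R (FractionRing R))
  have hinj : Function.Injective (algebraMap R M) := by
    rw [IsScalarTower.algebraMap_eq R (FractionRing R) M]
    exact (algebraMap (FractionRing R) M).injective.comp
      (IsFractionRing.injective R (FractionRing R))
  have : FaithfulSMul R M := (faithfulSMul_iff_algebraMap_injective R M).2 hinj
  have : Algebra.IsAlgebraic R M := ⟨fun x => (IsFractionRing.isAlgebraic_iff R (FractionRing R) M).2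
    (Algebra.IsAlgebraic.isAlgebraic x)⟩
  have hEm : ∀ x y, E' (x * y) = E' x * y + x * E' y := by
    intro x y
    rw [Derivation.leibniz, smul_eq_mul, smul_eq_mul]
    ring
  have hskew : ∀ x y, P' x y = - P' y x := by
    intro x y
    have h := hP2 (x + y)
    rw [map_add, map_add, LinearMap.add_apply, LinearMap.add_apply, hP2 x, hP2 y, zero_add,
      add_zero] at h
    exact eq_neg_of_add_eq_zero_right h
  let F : M → M → M := fun x y => E' (P' x y) - P' (E' x) y - P' x (E' y) + P' x y
  have hF : ∀ x y, F x y = E' (P' x y) - P' (E' x) y - P' x (E' y) + P' x y := fun _ _ => rfl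
  have hF1 : ∀ x y z, F x (y + z) = F x y + F x z := by
    intro x y z
    simp only [hF, map_add]
    ring
  have hF2 : ∀ x y z, F x (y * z) = F x y * z + y * F x z := by
    intro x y z
    simp only [hF, hP3, hEm, map_add]
    ring
  have hF3 : ∀ x y, F x y = - F y x := by
    intro x y
    rw [hF, hF, hskew x y, hskew (E' x) y, hskew x (E' y), map_neg]
    ring
  have hF4 : ∀ r s : R, F (algebraMap R M r) (algebraMap R M s) = 0 := by
    intro r s
    rw [hF, hE1, hE1, hP1, hP1, hP1, hE1, zb5_euler_P hX, map_sub, map_add]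
    ring
  have hF5 : ∀ (r : R) (y : M), F (algebraMap R M r) y = 0 := fun r y =>
    eq_zero_of_restrict (R := R) (F (algebraMap R M r)) (hF1 _) (hF2 _) (hF4 r) y
  have hF6 : ∀ x y : M, F x y = 0 := fun x y =>
    eq_zero_of_restrict (R := R) (F x) (hF1 _) (hF2 _)
      (fun r => by rw [hF3, hF5, neg_zero]) y
  have := hF6 x y
  rw [hF] at this
  linear_combination this

/-- Roots of homogeneous polynomials have degree one. -/
theorem IsHomRootOne.euler_ext {M : Type v} [Field M]
    [Algebra ℂ M] [Algebra R M] [IsScalarTower ℂ R M] {x : M} {q : R[X]}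
    (hq : IsHomRootOne 𝒜 x q) (E' : Derivation ℂ M M)
    (hE1 : ∀ r, E' (algebraMap R M r) = algebraMap R M (euler 𝒜 r)) : E' x = x := by
  have hEm : ∀ x y, E' (x * y) = E' x * y + x * E' y := by
    intro x y
    rw [Derivation.leibniz, smul_eq_mul, smul_eq_mul]
    ring
  have h1 := apply_root (euler 𝒜) (E' : M →ₗ[ℂ] M) hEm hE1 1 q (fun i hi => by
    rw [euler_apply _ _ (hq.2.1 i hi), mul_one]) x hq.2.2.1 hq.2.2.2
  rw [one_smul] at h1
  exact h1

/-- **Block G, stable form.** As `isAdjointVariety_of_isUnram`, but instead of unramifiedness it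
is assumed that the integral closure of `R` in `M` is stable under the Hamiltonian derivations
`{r, ·}`, `r ∈ R`. -/
theorem isAdjointVariety_of_stable (hX : IsContactFano 𝒜 P) [IsDomain R] {M : Type u} [Field M]
    [Algebra ℂ M] [Algebra R M] [IsScalarTower ℂ R M] [Algebra (FractionRing R) M]
    [IsScalarTower R (FractionRing R) M] [FiniteDimensional (FractionRing R) M]
    [IsGalois (FractionRing R) M] (X : Set M)
    (hX1 : ∀ x ∈ X, ∃ q : R[X], IsHomRootOne 𝒜 x q)
    (hgen : Algebra.adjoin (FractionRing R) X = ⊤) (P' : M →ₗ[ℂ] M →ₗ[ℂ] M)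
    (hP1 : ∀ r s, P' (algebraMap R M r) (algebraMap R M s) = algebraMap R M (P r s))
    (hP2 : ∀ x, P' x x = 0) (hP3 : ∀ x y z, P' x (y * z) = P' x y * z + y * P' x z)
    (hst : ∀ (r : R) (x : M), IsIntegral R x → IsIntegral R (P' (algebraMap R M r) x))
    (h : M) (hh : IsIntegral R h)
    (hh1 : ∀ E' : Derivation ℂ M M,
      (∀ r, E' (algebraMap R M r) = algebraMap R M (euler 𝒜 r)) → E' h = h)
    (s : M) (hs : IsIntegral R s) (hn : ∀ n : ℕ, (⇑(P' h))^[n] s ≠ 0) :
    IsAdjointVariety 𝒜 P :=
  isAdjointVariety_of_isUnram hX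
    (isUnram_of_stable hX (fun r x => P' (algebraMap R M r) x) (fun _ _ _ => map_add _ _ _)
      (fun _ _ _ => hP3 _ _ _) (fun _ _ => hP1 _ _) hst)
    X hX1 hgen P' hP1 hP2 hP3 h hh hh1 s hs hn

/-- **Block G, two roots.** The non-nilpotent element is the bracket `P' f g` of two roots. -/
theorem isAdjointVariety_of_stable_bracket (hX : IsContactFano 𝒜 P) [IsDomain R] {M : Type u}
    [Field M] [Algebra ℂ M] [Algebra R M] [IsScalarTower ℂ R M] [Algebra (FractionRing R) M]
    [IsScalarTower R (FractionRing R) M] [FiniteDimensional (FractionRing R) M]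
    [IsGalois (FractionRing R) M] (X : Set M)
    (hX1 : ∀ x ∈ X, ∃ q : R[X], IsHomRootOne 𝒜 x q)
    (hgen : Algebra.adjoin (FractionRing R) X = ⊤) (P' : M →ₗ[ℂ] M →ₗ[ℂ] M)
    (hP1 : ∀ r s, P' (algebraMap R M r) (algebraMap R M s) = algebraMap R M (P r s))
    (hP2 : ∀ x, P' x x = 0) (hP3 : ∀ x y z, P' x (y * z) = P' x y * z + y * P' x z)
    (hst : ∀ (r : R) (x : M), IsIntegral R x → IsIntegral R (P' (algebraMap R M r) x))
    (f g : M) (qf qg : R[X]) (hf : IsHomRootOne 𝒜 f qf) (hg : IsHomRootOne 𝒜 g qg)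
    (s : M) (hs : IsIntegral R s) (hn : ∀ n : ℕ, (⇑(P' (P' f g)))^[n] s ≠ 0) :
    IsAdjointVariety 𝒜 P := by
  have hft : Algebra.FiniteType ℂ R := hX.finiteType
  have hno : IsNoetherianRing R := Algebra.FiniteType.isNoetherianRing ℂ R
  have hic : IsIntegrallyClosed R := hX.normal
  have hU : IsUnram R M := isUnram_of_stable hX (fun r x => P' (algebraMap R M r) x)
    (fun _ _ _ => map_add _ _ _) (fun _ _ _ => hP3 _ _ _) (fun _ _ => hP1 _ _) hst
  have hskew : ∀ x y, P' x y = - P' y x := by
    intro x y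
    have h := hP2 (x + y)
    rw [map_add, map_add, LinearMap.add_apply, LinearMap.add_apply, hP2 x, hP2 y, zero_add,
      add_zero] at h
    exact eq_neg_of_add_eq_zero_right h
  have hint : ∀ (x : M) (q : R[X]), IsHomRootOne 𝒜 x q → IsIntegral R x := fun x q hq =>
    ⟨q, hq.1, by rw [← aeval_def]; exact hq.2.2.1⟩
  have hPint : IsIntegral R (P' f g) :=
    hU.derivation_isIntegral (P' f) (fun _ _ => map_add _ _ _)
      (hP3 _) (fun r => by rw [hskew]; exact (hst r f (hint f qf hf)).neg) g (hint g qg hg)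
  refine isAdjointVariety_of_isUnram hX hU X hX1 hgen P' hP1 hP2 hP3 (P' f g) hPint
    (fun E' hE' => ?_) s hs hn
  rw [euler_ext_bracket hX P' hP1 hP2 hP3 E' hE', hf.euler_ext E' hE', hg.euler_ext E' hE',
    add_sub_cancel_right]

end Vale.Agent.P292
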